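import Crest.Agent.X212.Unb45.Idx
import Crest.Agent.X212.Cht98.PchA
import Crest.Agent.X212.Crt72.Exc
import Crest.Agent.X212.Gap6.Sec

/-!
# Row 212, RAD-FRE (helper43): counting eigenvalues, cut and transport on level zero
-/

set_option autoImplicit false
set_option linter.unusedSectionVars false
noncomputable section
open scoped Manifold ContDiff Topology InnerProductSpace BoundedContinuousFunction
open MeasureTheory Set Function Filter

namespace Crest.Agent.X212.Fre43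
open An An.Pre Sob92 Ell97 Cyf70 Fred93 Cht98 Unb45

theorem isol {S : Set ℝ} (fin : ∀ a b, (S ∩ Icc a b).Finite) (ν : ℝ) :
    ∀ᶠ ε in 𝓝[>] (0 : ℝ), S ∩ Icc (ν - ε) (ν + ε) ⊆ {ν} := by
  obtain ⟨δ, h0, h⟩ := Metric.mem_nhds_iff.1 (((fin (ν - 1) (ν + 1)).sdiff
    (t := {ν})).isClosed.isOpen_compl.mem_nhds (x := ν) fun h => h.2 rfl)
  filter_upwards [Ioo_mem_nhdsGT (lt_min h0 one_pos)] with ε hε x hx
  have h1 := (lt_min_iff.1 hε.2).1
  have h2 := (lt_min_iff.1 hε.2).2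
  by_contra k
  exact h (show dist x ν < δ from abs_lt.2 ⟨by linarith [hx.2.1], by linarith [hx.2.2]⟩)
    ⟨⟨hx.1, by linarith [hx.2.1], by linarith [hx.2.2]⟩, k⟩

theorem cnt {S : Set ℝ} (fin : ∀ a b, (S ∩ Icc a b).Finite) {m : ℝ → ℤ} {φ : ℝ → ℝ → ℤ}
    (add : ∀ a ∉ S, ∀ b ∉ S, ∀ c ∉ S, φ a b + φ b c = φ a c)
    (hom : ∀ a b, a ≤ b → (∀ x ∈ Icc a b, x ∉ S) → φ a b = 0)
    (loc : ∀ ν ∈ S, ∀ᶠ ε in 𝓝[>] (0 : ℝ), φ (ν - ε) (ν + ε) = m ν) {a b : ℝ} (h : a ≤ b)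
    (ha : a ∉ S) (hb : b ∉ S) : φ a b = ∑ᶠ ν ∈ S ∩ Ioo a b, m ν := by
  have f : ∀ b, (S ∩ Ioo a b).Finite := fun b => (fin a b).subset (inter_subset_inter_right _ Ioo_subset_Icc_self)
  induction hn : (S ∩ Ioo a b).ncard generalizing b with
  | zero =>
    rw [ncard_eq_zero (f b)] at hn
    rw [hn, finsum_mem_empty]
    refine hom a b h fun x hx k => ?_
    exact hn.le ⟨k, hx.1.lt_of_ne fun e => ha (e ▸ k), hx.2.lt_of_ne fun e => hb (e ▸ k)⟩
  | succ n ih =>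
    obtain ⟨ν, h1, h2⟩ := (S ∩ Ioo a b).exists_max_image id (f b)
      (nonempty_of_ncard_ne_zero (by omega))
    obtain ⟨ε, ⟨⟨e1, e2⟩, e3, e4⟩, e5, e6⟩ := ((((isol fin ν).and (loc ν h1.1)).and
      (Ioo_mem_nhdsGT (sub_pos.2 h1.2.1))).and (Ioo_mem_nhdsGT (sub_pos.2 h1.2.2))).exists
    have k1 : ν - ε ∉ S := fun k => by
      have : ν - ε = ν := e1 ⟨k, le_rfl, by linarith⟩
      linarith
    have k2 : ν + ε ∉ S := fun k => by
      have : ν + ε = ν := e1 ⟨k, by linarith, le_rfl⟩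
      linarith
    have k3 : ν ∉ S ∩ Ioo a (ν - ε) := fun k => by linarith [k.2.2]
    have e : S ∩ Ioo a b = insert ν (S ∩ Ioo a (ν - ε)) := by
      refine Subset.antisymm (fun x hx => ?_) (insert_subset h1
        (inter_subset_inter_right _ (Ioo_subset_Ioo_right (by linarith))))
      rcases lt_or_ge x (ν - ε) with k | k
      · exact .inr ⟨hx.1, hx.2.1, k⟩
      · exact .inl (e1 ⟨hx.1, k, (h2 x hx).trans (by simp [e3.le])⟩)
    rw [e, ncard_insert_of_notMem k3 (f _)] at hn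
    rw [e, finsum_mem_insert _ k3 (f _), ← ih (by linarith) k1 (by omega), ← e2,
      ← add a ha _ k2 b hb, ← add a ha _ k1 _ k2, hom (ν + ε) b (by linarith) fun x hx k => ?_]
    · ring
    · have : x ≤ ν := h2 x ⟨k, by linarith [hx.1, h1.2.1], hx.2.lt_of_ne fun e => hb (e ▸ k)⟩
      linarith [hx.1]

section sf
variable {X₁ X₀ : Type} [NormedAddCommGroup X₁] [NormedSpace ℝ X₁] [CompleteSpace X₁]
  [NormedAddCommGroup X₀] [InnerProductSpace ℝ X₀] [CompleteSpace X₀] {i L : X₁ →L[ℝ] X₀}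
  {sf : (X₀ →L[ℝ] X₀) → (X₀ →L[ℝ] X₀) → ℤ}

theorem sym_id (c : ℝ) : c • ContinuousLinearMap.id ℝ X₀ ∈ SymA X₀ :=
  (SymA X₀).smul_mem c fun _ _ => rfl

theorem op_id (c : ℝ) : Crt72.Op i L (-c • .id ℝ X₀) = L - c • i := by
  ext x; simp [Crt72.Op_apply, sub_eq_add_neg]

/-- the spectral flow counts eigenvalues -/
theorem sf_cnt (H : Crt72.SF i L (SymA X₀) sf) {S : Set ℝ}
    (hS : ∀ l, l ∉ S ↔ Injective (L - l • i : X₁ →L[ℝ] X₀)) (fin : ∀ a b, (S ∩ Icc a b).Finite)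
    {a b : ℝ} (h : a ≤ b) (ha : a ∉ S) (hb : b ∉ S) : sf (-b • .id ℝ X₀) (-a • .id ℝ X₀) =
      ∑ᶠ ν ∈ S ∩ Ioo a b, (Module.finrank ℝ (L - ν • i : X₁ →L[ℝ] X₀).ker : ℤ) := by
  have bij : ∀ l ∉ S, Bijective (Crt72.Op i L (-l • .id ℝ X₀)) := fun l hl =>
    op_id (i := i) (L := L) l ▸ bij_sub H.cpt H.fr ((hS l).1 hl)
  refine cnt fin (φ := fun a b => sf (-b • .id ℝ X₀) (-a • .id ℝ X₀)) (fun a ha b hb c hc => ?_)
    (fun a b h k => H.hom _ (sym_id _) _ (sym_id _) fun s hs => ?_) (fun ν _ => ?_) h ha hb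
  · exact (add_comm _ _).trans (H.add _ (sym_id _) _ (sym_id _) _ (sym_id _) (bij c hc) (bij b hb)
      (bij a ha))
  · have e : -b • ContinuousLinearMap.id ℝ X₀ + s • (-a • .id ℝ X₀ - -b • .id ℝ X₀) =
        -(b - s * (b - a)) • .id ℝ X₀ := by module
    exact e ▸ bij _ (k _ ⟨by nlinarith [hs.2], by nlinarith [hs.1]⟩)
  · have := (H.frOp (-ν • .id ℝ X₀)).1.finite_ker
    obtain ⟨P, hP⟩ := Crt72.exists_isPj i (Crt72.Op i L (-ν • .id ℝ X₀)).ker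
    have pos : ∀ k : X₁, k ≠ 0 → 0 < ⟪i k, i k⟫_ℝ := fun k hk =>
      real_inner_self_pos.2 fun h => hk (H.inj (h.trans (map_zero i).symm))
    filter_upwards [H.cross (sym_id _) (sym_id 1) hP (K₂ := ⊥) (sup_bot_eq _) (by simp)
      (fun k _ h0 => by simpa using pos k h0) (by simp), H.cross (sym_id _) (sym_id (-1)) hP
      (K₁ := ⊥) (bot_sup_eq _) (by simp) (by simp) fun k _ h0 => by simpa using pos k h0] with ε h1 h2
    have e1 : -ν • ContinuousLinearMap.id ℝ X₀ + ε • (1 : ℝ) • .id ℝ X₀ = -(ν - ε) • .id ℝ X₀ := by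
      module
    have e2 : -ν • ContinuousLinearMap.id ℝ X₀ + ε • (-1 : ℝ) • .id ℝ X₀ = -(ν + ε) • .id ℝ X₀ := by
      module
    rw [e1] at h1
    rw [e2] at h2
    have := H.add _ ((SymA X₀).sub_mem (sym_id (-ν)) ((SymA X₀).smul_mem ε hP.symm)) _ (sym_id _) _
      (sym_id _) h1.2.1 h2.1 h1.1
    rw [h1.2.2, h2.2.2, op_id] at this
    simpa using this

theorem fr_abs {Z : Type} [NormedAddCommGroup Z] [NormedSpace ℝ Z] [CompleteSpace Z]
    {J : Z →L[ℝ] Lam X₁} {T : Z →L[ℝ] Lam X₀} (h : CylD 1 i L J T) {σ σ' : ℝ →ᵇ ℝ} {r : ℝ}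
    (hσ : Stp σ σ' r) {c d : ℝ} (hc : Bijective (L - c • i : X₁ →L[ℝ] X₀))
    (hd : Bijective (L - d • i : X₁ →L[ℝ] X₀)) {K : Lam X₀ →L[ℝ] Lam X₀}
    (hK : ∀ y, K y = -c • y + (c - d) • mt X₀ σ y) :
    Fr (Dz i L J T K) (Cyf70.sf i L J T σ (-c • .id ℝ X₀) (-d • .id ℝ X₀)) := by
  obtain ⟨s, hs⟩ := h.exists_mul hσ.der
  have l := fun (c : ℝ) (hc : Bijective (L - c • i : X₁ →L[ℝ] X₀)) =>
    h.lim_cp (a := -c • ContinuousLinearMap.id ℝ X₀) hσ (fun u => (hs u).1) (sym_id (X₀ := X₀) (-c))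
      (by rwa [← op_id] at hc)
  have := fr_gl (l c hc) (l d hd)
  rw [gl_Dz] at this
  refine (congrArg (fun K => Fr (Dz i L J T K) _) ?_).mp this
  refine ContinuousLinearMap.ext fun y => Eq.trans ?_ (hK y).symm
  simp only [_root_.add_apply, _root_.sub_apply, ContinuousLinearMap.comp_apply]
  exact R.ext' (by rr) (by rr) fun t => by simp; module

end sf

theorem stp_of {f : ℝ → ℝ} {r : ℝ} (hf : ContDiff ℝ ∞ f) (hb : ∀ t, ‖f t‖ ≤ 1) (hr : 0 < r)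
    (lo : ∀ t ≤ -r, f t = 0) (hi : ∀ t ≥ r, f t = 1) :
    ∃ σ σ' : ℝ →ᵇ ℝ, Stp σ σ' r ∧ ∀ t, σ t = f t := by
  have h2 : HasCompactSupport (deriv f) := by
    refine HasCompactSupport.intro (isCompact_Icc (a := -r) (b := r)) fun t ht => ?_
    rw [mem_Icc, not_and_or, not_le, not_le] at ht
    rcases ht with ht | ht
    · exact ((hasDerivAt_const t 0).congr_of_eventuallyEq ((eventually_lt_nhds ht).mono
        fun s hs => lo s hs.le)).deriv
    · exact ((hasDerivAt_const t 1).congr_of_eventuallyEq ((eventually_gt_nhds ht).mono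
        fun s hs => hi s hs.le)).deriv
  exact ⟨.ofNormedAddCommGroup f hf.continuous 1 hb,
    ofCompactSupport _ (hf.continuous_deriv (by simp)) h2, ⟨hf,
    fun t => (hf.differentiable (by simp) t).hasDerivAt, lo, hi, hr⟩, fun _ => rfl⟩

section cyl
variable {E : Type} [NormedAddCommGroup E] [NormedSpace ℝ E] [FiniteDimensional ℝ E]
  [MeasurableSpace E] [BorelSpace E]
  {HM : Type} [TopologicalSpace HM] {I : ModelWithCorners ℝ E HM} [I.Boundaryless]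
  {Y : Type} [TopologicalSpace Y] [ChartedSpace HM Y] [IsManifold I ∞ Y] [T2Space Y]
  [MeasurableSpace Y] [BorelSpace Y] [SecondCountableTopology Y] [CompactSpace Y]
  {ι : Type} [Fintype ι]
  {V W : Type} [NormedAddCommGroup V] [InnerProductSpace ℝ V] [NormedAddCommGroup W]
  [InnerProductSpace ℝ W] [FiniteDimensional ℝ V] [FiniteDimensional ℝ W]
  {F : Fr I Y ι} {A : Op Y (Option ι) V W} (h : CyO F A)
include h

theorem eig_eqv (l : ℝ) :
    Nonempty (kerS F (shf A l) ≃ₗ[ℝ] (LH F A 0 - l • F.incl 1 0 A.p : _ →L[ℝ] _).ker) := by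
  obtain ⟨C, g⟩ := h.good_sop
  obtain ⟨C', t⟩ := h.tameY
  obtain ⟨C'', g'⟩ : ∃ C, (shf A l).Good F C := good_of_cb ⟨_, g.p.cb⟩ ⟨_, g.p.cb⟩
    (fun a => ⟨_, g.σ a⟩) (Cb_sub ⟨_, g.B⟩ (Cb_smul (Cb_const l) ⟨_, g.p.cb⟩)) g.p.idem g.p.symm
    g.p.idem g.p.symm g.σp g.qσ (fun y v => by
      change A.p y (_ - l • A.p y v) = _ - l • A.p y v
      rw [map_sub, map_smul]; exact congrArg₂ (fun a b => a - l • b) (g.qB y v) (g.p.idem y v))
    g.Pσ
  rw [← RepT_eq (rep_OpH g' 0).1 (RepT_sub (rep_OpH g 0).1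
    (RepT_smul l (rep_incl zero_le_one))) fun u => funext fun y => ?_]
  · exact ⟨kerSEquiv t g' h.cliffL 0⟩
  change _ + (_ - l • A.p y (u.1 y)) = _ + _ - l • u.1 y
  rw [u.2.2.2, add_sub_assoc]; rfl

theorem spec_eq : {l | kerS F (shf A l) ≠ ⊥} = Gap6.SpS F (sop A) := by
  rw [← Gap6.sp_eq h]
  ext l
  simp only [mem_ofPred_eq, Ne, ← inj_shf h, injective_iff_map_eq_zero, Gap6.Sp, not_forall,
    exists_prop, _root_.sub_apply, _root_.smul_apply, sub_eq_zero, and_comm]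

/-- the index of `ν (∂_t + L - c - σ (d - c))` -/
theorem fr_stp {σ σ' : ℝ →ᵇ ℝ} {r : ℝ} (hσ : Stp σ σ' r) (cb : (cylP F.toPre).Cb fun x => σ x.2)
    {c d : ℝ} (hc : kerS F (shf A c) = ⊥) (hd : kerS F (shf A d) = ⊥)
    {K : (cylP F.toPre).H 0 (pc A.p) →L[ℝ] (cylP F.toPre).H 0 (pc A.q)}
    (hK : ∀ x, K x = NH' F A 0 (-c • x + (c - d) • smulH (cylP F.toPre) 0 (pc A.p) (fun x => σ x.2) x)) :
    Fr (AH F A 0 + K ∘L (cylP F.toPre).incl 1 0 (pc A.p))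
      (sf (F.incl 1 0 A.p) (LH F A 0) (Ψ F.toPre 1 A.p) (TH F A.p) σ
        (-c • .id ℝ (F.H 0 A.p)) (-d • .id ℝ (F.H 0 A.p))) := by
  have b := fun c (hc : kerS F (shf A c) = ⊥) =>
    bij_sub (Cht98.rellich zero_lt_one) (h.frL 0) ((inj_shf h c).2 hc)
  refine (h.fr_iff K).2 (fr_abs h.cylD hσ (b c hc) (b d hd) fun y => ?_)
  obtain ⟨x, rfl⟩ := (Ψe F.toPre A.p).surjective y
  rw [Ψe_apply, h.KL_Ψ, h.U_apply, hK, h.NH_NH', map_add, map_smul, map_smul, Ψ_smul cb]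

end cyl

variable {E : Type} [NormedAddCommGroup E] [NormedSpace ℝ E] [FiniteDimensional ℝ E]
  [MeasurableSpace E] [BorelSpace E]
  {HM : Type} [TopologicalSpace HM] {I : ModelWithCorners ℝ E HM} [I.Boundaryless]
  {M : Type} [TopologicalSpace M] [ChartedSpace HM M] [IsManifold I ∞ M]
  [MeasurableSpace M] [T2Space M] [BorelSpace M] [SecondCountableTopology M]
  {E' : Type} [NormedAddCommGroup E'] [NormedSpace ℝ E'] [FiniteDimensional ℝ E']
  [MeasurableSpace E'] [BorelSpace E']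
  {HM' : Type} [TopologicalSpace HM'] {I' : ModelWithCorners ℝ E' HM'} [I'.Boundaryless]
  {M' : Type} [TopologicalSpace M'] [ChartedSpace HM' M'] [IsManifold I' ∞ M']
  [MeasurableSpace M'] [T2Space M'] [BorelSpace M'] [SecondCountableTopology M']
  {ι : Type} [Fintype ι]
  {V W : Type} [NormedAddCommGroup V] [InnerProductSpace ℝ V] [FiniteDimensional ℝ V]
  [NormedAddCommGroup W] [InnerProductSpace ℝ W] [FiniteDimensional ℝ W]

/-- corresponding cut-off functions -/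
structure CP (F : Pre I M ι) (F' : Pre I' M' ι) (φ : OpenPartialHomeomorph M M') (χ : M → ℝ)
    (χ' : M' → ℝ) : Prop where
  iso : Iso F F' φ
  cb : F.Cb χ
  cb' : F'.Cb χ'
  adm : Adm φ.symm (tsupport χ)
  adm' : Adm φ (tsupport χ')
  eq : ∀ x ∈ φ.source, χ x = χ' (φ x)

namespace CP
variable {F : Pre I M ι} {F' : Pre I' M' ι} {φ : OpenPartialHomeomorph M M'} {χ : M → ℝ}
  {χ' : M' → ℝ}

theorem symm (h : CP F F' φ χ χ') : CP F' F φ.symm χ' χ :=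
  ⟨iso_symm h.iso, h.cb', h.cb, h.adm', h.adm, fun y hy => by
    rw [h.eq _ (φ.map_target hy), φ.right_inv hy]⟩

theorem td (h : CP F F' φ χ χ') : TD F F' φ χ' := ⟨h.iso, h.cb', h.adm'.1⟩

theorem rep {χ₁ : M → ℝ} {χ₁' : M' → ℝ} (h : CP F F' φ χ χ') (h₁ : CP F F' φ χ₁ χ₁')
    {p : M → V →L[ℝ] V} {p' : M' → V →L[ℝ] V} (hp : ∀ x ∈ φ.source, p x = p' (φ x)) (k : ℕ) :
    F'.Rep (tc F' F φ.symm k p p' χ ∘L tc F F' φ k p' p χ₁') fun u y => (χ' y * χ₁' y) • u y :=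
  RepT_congr (RepT_comp (h.symm.td.rep (fun y hy => by rw [hp _ (φ.map_target hy), φ.right_inv hy]) k)
    (h₁.td.rep hp k)) fun u => funext fun y => by
      by_cases hy : y ∈ φ.target
      · simp only [pull_of_mem (φ := φ.symm) hy, pull_of_mem (φ.map_target hy), φ.right_inv hy,
          h.eq _ (φ.map_target hy), smul_smul]
      · rw [pull_of_notMem (φ := φ.symm) hy, image_eq_zero_of_notMem_tsupport fun k => hy (h.adm'.1 k),
          zero_mul, zero_smul]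

end CP

/-- **cut and transport commute with asymptotic operators modulo compact ones** -/
theorem comm0 {F : Fr I M ι} {F' : Fr I' M' ι} {φ : OpenPartialHomeomorph M M'} {χ : M → ℝ}
    {χ' χ₁ : M' → ℝ} (h : CP F.toPre F'.toPre φ χ χ') (h₁ : TD F.toPre F'.toPre φ χ₁)
    (h1 : ∀ y ∈ tsupport χ', χ₁ y = 1) {A : Op M ι V W} {A' : Op M' ι V W} {C C' C'' : ℕ → ℝ}
    (hA : A.Good F C) (hA' : A'.Good F' C') (t : F'.Tame C'')
    (hp : ∀ x ∈ φ.source, A.p x = A'.p (φ x)) (hq : ∀ x ∈ φ.source, A.q x = A'.q (φ x))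
    (hσ : ∀ x ∈ φ.source, ∀ a, A.σ a x = A'.σ a (φ x))
    (sm : ∀ δ > 0, ∃ K, IsCompact K ∧ ∀ x ∈ φ.source, φ x ∉ K →
      (∀ a, F'.D a χ' (φ x) = 0) ∧ ‖χ x • (A'.B (φ x) - A.B x)‖ ≤ δ) :
    Cq (tc F.toPre F'.toPre φ 0 A'.q A.q χ' ∘L A'.H F' 0)
      (A.H F 0 ∘L tc F.toPre F'.toPre φ 1 A'.p A.p χ') := by
  have hs : Sm I' χ' := h.cb'.choose_spec.1
  obtain ⟨D, hD⟩ := Cb_smul h.cb ⟨_, hA.B⟩
  have a1 : Adm φ.symm (tsupport fun x => χ x • A.B x) := h.adm.mono (isClosed_tsupport _)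
    (closure_mono fun x hx h0 => hx (by simp [h0]))
  let b : M' → V →L[ℝ] W := fun y =>
    χ' y • A'.B y - pull φ.symm (fun x => χ x • A.B x) y - sy F' A' χ' y
  have cb : F'.Cb b := Cb_sub (Cb_sub (Cb_smul h.cb' ⟨_, hA'.B⟩) ⟨_, sm_pull (iso_symm h.iso) hD.1 a1,
    fun k => CB_pull (iso_symm h.iso) k hD.1 a1 (hD.2 k)⟩) (cb_sy hA' h.cb')
  have e1 : ∀ x ∈ φ.source, b (φ x) = χ x • (A'.B (φ x) - A.B x) - sy F' A' χ' (φ x) := fun x hx => by
    simp only [b, pull_of_mem (φ := φ.symm) (φ.map_source hx), φ.left_inv hx, h.eq x hx, smul_sub]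
  have z : ∀ y ∉ tsupport χ', χ' y = 0 ∧ sy F' A' χ' y = 0 := fun y hy =>
    ⟨image_eq_zero_of_notMem_tsupport hy, by simp [sy, D_def, dv_eq_zero_of_notMem hy]⟩
  have e2 : ∀ y ∉ φ.target, b y = 0 := fun y hy => by
    have := z y fun k => hy (h.adm'.1 k)
    simp [b, pull_of_notMem (φ := φ.symm) hy, this]
  have mb : Maps A'.p A'.q b := .of_left fun y v => by
    by_cases hy : y ∈ φ.target
    · obtain ⟨x, hx, rfl⟩ := φ.surjOn hy
      have := hA.qB x v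
      rw [hq x hx] at this
      simp [e1 x hx, sy, hA'.qB, hA'.qσ, this]
    · simp [e2 y hy]
  have k := cpt_small t cb mb fun δ hδ => (sm δ hδ).imp fun K hK => ⟨hK.1, fun y hy => by
    by_cases hy' : y ∈ φ.target
    · obtain ⟨x, hx, rfl⟩ := φ.surjOn hy'
      simpa [e1 x hx, sy, (hK.2 x hx hy).1] using (hK.2 x hx hy).2
    · simp [e2 y hy', hδ.le]⟩
  refine Cq.of_cpt (k.cpt.clm_comp (tc F.toPre F'.toPre φ 0 A'.q A.q χ₁)) (DFunLike.congr_fun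
    (RepT_eq (RepT_comp (h.td.rep hq 0) (rep_OpH hA' 0).1) (RepT_add (RepT_comp (rep_OpH hA 0).1
      (h.td.rep hp 1)) (RepT_comp (h₁.rep hq 0) (RepT_comp (rep_mulH cb mb) (rep_incl zero_le_one))))
      fun u => funext fun x => ?_))
  have s2 : Adm φ (tsupport fun y => χ' y • u.1 y) := h.adm'.mono (isClosed_tsupport _)
    (closure_mono fun y hy h0 => hy (by simp [h0]))
  have e := fun a => D_pull (u := fun y => χ' y • u.1 y) h.iso (hs.smul u.2.1) s2 a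
  simp only [Pi.add_apply, id, Op.app, Pre.op, e]
  by_cases hx : x ∈ φ.source
  · have e3 := app_smul (F := F') (A := A') hs u.2.1 (φ x)
    have e4 : χ₁ (φ x) • b (φ x) (u.1 (φ x)) = b (φ x) (u.1 (φ x)) := by
      by_cases k : φ x ∈ tsupport χ'
      · rw [h1 _ k, one_smul]
      · simp [e1 x hx, h.eq x hx, z _ k]
    simp only [Op.app, Pre.op] at e3
    simp only [pull_of_mem hx, hσ x hx]
    rw [e4, e1 x hx, eq_sub_of_add_eq e3, h.eq x hx]
    simp only [map_smul, smul_add, smul_sub, _root_.sub_apply, _root_.smul_apply]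
    abel
  · simp [pull_of_notMem hx]

/-- interior parametrices -/
theorem int_par {F : Fr I M ι} {A : Op M ι V W} {C C' : ℕ → ℝ} (t : F.Tame C) (hA : A.Good F C')
    (hc : A.Cliff F) {χ : M → ℝ} (h1 : Sm I χ) (h2 : HasCompactSupport χ) :
    Cq (A.H F 0 ∘L smulH F.toPre 1 A.p χ) (smulH F.toPre 0 A.q χ ∘L A.H F 0) ∧
    (∃ Q, Cq (Q ∘L A.H F 0 ∘L smulH F.toPre 1 A.p χ) (smulH F.toPre 1 A.p χ)) ∧
      ∃ Q, Cq (smulH F.toPre 0 A.q χ ∘L A.H F 0 ∘L Q) (smulH F.toPre 0 A.q χ) := by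
  have cb : F.Cb χ := Cb_of_hcs h1 h2
  obtain ⟨Q, hQ⟩ := exists_loc' (par t hA hc)
  let P := (par t hA hc).swap.toHalf
  have m : Maps A.p A.q (sy F A χ) := .of_left fun x v => by simp [sy, hA.qσ]
  refine ⟨Cq.of_cpt (rellich_mul (cb_sy hA cb).choose_spec.1 (.intro h2 fun x hx => by
      simp [sy, D_def, dv_eq_zero_of_notMem hx]) m zero_lt_one) (DFunLike.congr_fun
    (RepT_eq (RepT_comp (rep_OpH hA 0).1 (rep_smulH cb)) (RepT_add (RepT_comp (rep_smulH cb)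
      (rep_OpH hA 0).1) (RepT_comp (rep_mulH (cb_sy hA cb) m) (rep_incl zero_le_one)))
      fun u => funext (app_smul h1 u.2.1))), ⟨Q, hQ _ (.id ℝ _) ?_⟩, P.L 1 ∘L P.G 0, Cq.of_cpt
    (K := -(smulH F.toPre 0 A.q χ ∘L F.incl 1 0 A.q) ∘L P.i 1 ∘L P.G 0)
    ((rellich_smul h1 h2 zero_lt_one).neg.comp_clm _) fun u => ?_⟩
  · have e : F.incl 1 0 A.p ∘L smulH F.toPre 1 A.p χ = smulH F.toPre 0 A.p χ ∘L F.incl 1 0 A.p :=
      RepT_eq (RepT_comp (rep_incl zero_le_one) (rep_smulH cb))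
        (RepT_comp (rep_smulH cb) (rep_incl zero_le_one)) fun _ => rfl
    exact e ▸ rellich_smul h1 h2 zero_lt_one
  · have e := congrArg (smulH F.toPre 0 A.q χ) (P.Q_G 0 u)
    rw [P.Q_apply, map_add] at e
    exact (eq_sub_of_add_eq' e).trans (sub_eq_add_neg _ _)

end Crest.Agent.X212.Fre43
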