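import Crest.Agent.X212.Fre43.Abs
import Crest.Agent.X212.Gnk31.Lop

/-!
# Row 212, RAD-FRE (helper43): Fredholm theory on a manifold with cylindrical ends
-/

set_option autoImplicit false
set_option linter.unusedSectionVars false
noncomputable section
open scoped Manifold ContDiff Topology InnerProductSpace BoundedContinuousFunction
open MeasureTheory Set Function Filter Real

namespace Crest.Agent.X212.Fre43
open An An.Pre Sob92 Ell97 Cyf70 Fred93 Cht98 Rad94 Gnk31
open Unb45 (shf inj_shf bij_sub bij_cyl cpt_small mem_Dp)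
open Ulc97 hiding Ψ
open M (Mf pm)
open Nd18 (BD)

variable {κ lam A : Type} [Fintype κ] [Fintype lam] [Fintype A] {X : Mf 4}
  {V W : Type} [NormedAddCommGroup V] [InnerProductSpace ℝ V] [FiniteDimensional ℝ V]
  [NormedAddCommGroup W] [InnerProductSpace ℝ W] [FiniteDimensional ℝ W]
  (g : Gm X κ lam A) (s : A) (R : ℝ)

/-- the height on the cylinder -/
def hz (t : ℝ) : ℝ := g.sg s * (t - g.o s) - 1

/-- the cut-off on `X` -/
def th (x : X.M) : ℝ := χ (g.ht s x - R)

/-- the cut-off on the cylinder -/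
def th' (z : (g.Y s).M × ℝ) : ℝ := χ (hz g s z.2 - R)

theorem cont_hz : Continuous (hz g s) := by unfold hz; fun_prop

theorem bd_hz : ∃ C, BD (fun t => χ (hz g s t - R)) C := by
  obtain ⟨C, h⟩ := Nd18.bd_st
  refine ⟨C, ?_⟩
  unfold hz
  rcases sg_cases g s with e | e <;> rw [e]
  · convert h.shift (-g.o s - 1 - R) using 3 with t; ring
  · convert h.refl (g.o s - 1 - R) using 3 with t; ring

variable {g s R}

theorem ht_ψ {z : (g.Y s).M × ℝ} (h : z ∈ (g.K s).ψ.source) : g.ht s ((g.K s).ψ z) = hz g s z.2 := by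
  rw [Gm.ht, (g.K s).tm_ψ _ h, hz]

theorem src_iff {z : (g.Y s).M × ℝ} : z ∈ (g.K s).ψ.source ↔ -1 < hz g s z.2 :=
  (g.K s).mem_src.trans mem_J

theorem ψ_pt (z : (g.Y s).M × ℝ) : (g.K s).ψ z = g.pt s (hz g s z.2) z.1 := by
  rw [Gm.pt, hz, tt_sg]

theorem supp_χ {Y : Type} [TopologicalSpace Y] {h : Y → ℝ} (hc : Continuous h) :
    tsupport (fun x => χ (h x - R)) ⊆ h ⁻¹' Ici R :=
  closure_minimal (fun _ hx => le_of_not_ge fun k => hx
    (smoothTransition.zero_of_nonpos (sub_nonpos.2 k))) (isClosed_Ici.preimage hc)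

theorem χ_mul (t : ℝ) : χ (t - 0) * χ (t - 1) = χ (t - 1) := by
  rcases le_total t 1 with h | h
  · rw [show χ (t - 1) = 0 from smoothTransition.zero_of_nonpos (by linarith), mul_zero]
  · rw [show χ (t - 0) = 1 from smoothTransition.one_of_one_le (by linarith), one_mul]

theorem cp (hR : 0 ≤ R) : CP (g.D s).Z.toPre g.F.toPre (g.K s).ψ (th' g s R) (th g s R) := by
  obtain ⟨C, h⟩ := Nd18.bd_st
  refine ⟨(g.K s).iso, (bd_hz g s R).imp fun _ h => h.cyl _,
    ⟨_, CBs_rad (b := 0) (c := fun t => χ (t - R)) neg_one_lt_zero (h.shift (-R)) fun t ht =>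
      smoothTransition.zero_of_nonpos (by linarith)⟩, (g.K s).adm one_pos fun z hz => ?_,
    Adm.mono (K := g.ht s ⁻¹' Ici R) ⟨fun x hx => mem_tgt.2 (by linarith [show R ≤ g.ht s x from hx]), ?_⟩
      (isClosed_tsupport _) (supp_χ (cont_ht g s)), fun z hz => by rw [th, ht_ψ hz, th']⟩
  · exact smoothTransition.zero_of_nonpos (by
      linarith [show Fre43.hz g s z.2 < 0 from not_le.1 fun k => hz ((mem_Dp g s _).2 k)])
  · convert (isClosed_Ici (a := R)).preimage ((cont_hz g s).comp (continuous_snd (X := (g.Y s).M))) using 1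
    ext z
    exact ⟨fun h => (ht_ψ h.1).le.trans' h.2, fun h =>
      have k := src_iff.2 (by linarith [show R ≤ hz g s z.2 from h])
      ⟨k, (ht_ψ k).ge.trans' h⟩⟩

theorem D_far {E : Type} [NormedAddCommGroup E] [NormedSpace ℝ E] [FiniteDimensional ℝ E]
    [MeasurableSpace E] [BorelSpace E] {HM : Type} [TopologicalSpace HM]
    {I : ModelWithCorners ℝ E HM} {M : Type} [TopologicalSpace M] [ChartedSpace HM M]
    [IsManifold I ∞ M] [MeasurableSpace M] {ι : Type} [Fintype ι] (F : Pre I M ι) {h : M → ℝ}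
    (hc : Continuous h) {x : M} (hx : 2 < h x) (a : ι) : F.D a (fun x => χ (h x - 1)) x = 0 := by
  rw [D_def, dv_congr (v := fun _ => (1 : ℝ)) ((hc.continuousAt.eventually (lt_mem_nhds hx)).mono
    fun y hy => smoothTransition.one_of_one_le (by linarith)), dv_const]
  rfl

variable (L : Lop g V W) (s)

/-- `ν (∂_t + L - l)` on the cylinder -/
abbrev cy (l : ℝ) : Op ((g.Y s).M × ℝ) (Option κ) V W :=
  adB (cyo (L.E s)) fun z => -l • (L.E s).σ none z.1

variable {L} (h : L.OK) {l l' : A → ℝ}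
include h

theorem good_cy (l : ℝ) : ∃ C, (cy s L l).Good (g.D s).Z C :=
  let ⟨_, G⟩ := (h.cy s).good
  good_adB G (Cb_smul (Cb_const _) ((h.cy s).cb_σ none)) fun z v => by
    simpa using congrArg (l • ·) (G.qσ none z v)

theorem cy_H (l : ℝ) : (cy s L l).H (g.D s).Z 0 = AH (g.D s).F (L.E s) 0 +
    (-l • NH' (g.D s).F (L.E s) 0) ∘L (cylP (g.D s).F.toPre).incl 1 0 (pc (L.E s).p) :=
  RepT_eq (rep_OpH (good_cy s h l).choose_spec 0).1 (RepT_add (h.cy s).rep_AH
    (RepT_comp (RepT_smul (-l) (h.cy s).rep_NH') (rep_incl zero_le_one)))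
    fun _ => funext (adB_app _)

theorem lit_p : ∀ z ∈ (g.K s).ψ.source, pc (L.E s).p z = L.A.p ((g.K s).ψ z) := fun z hz => by
  rw [ψ_pt, h.p s _ _ (src_iff.1 hz)]

theorem lit_q : ∀ z ∈ (g.K s).ψ.source, pc (L.E s).q z = L.A.q ((g.K s).ψ z) := fun z hz => by
  rw [ψ_pt, h.q s _ _ (src_iff.1 hz)]

theorem lit_σ : ∀ z ∈ (g.K s).ψ.source, ∀ a, (L.E s).σ a z.1 = L.A.σ a ((g.K s).ψ z) :=
  fun z hz a => by rw [ψ_pt, h.σ s _ _ _ (src_iff.1 hz)]

theorem far (l : A → ℝ) {δ : ℝ} (hδ : 0 < δ) : ∃ T, ∀ z : (g.Y s).M × ℝ, T < hz g s z.2 →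
    2 < hz g s z.2 ∧ ‖(L.sh l).B ((g.K s).ψ z) - (cy s L (l s)).B z‖ ≤ δ := by
  obtain ⟨T, hT⟩ := h.B s δ hδ
  refine ⟨max T 2, fun z k => ?_⟩
  have k2 := (le_max_right _ _).trans_lt k
  refine ⟨k2, (congrArg norm ?_).trans_le (hT _ ((le_max_left _ _).trans k.le) z.1)⟩
  simp only [sh_eq, ψ_pt z, rd_pt h.gm (rd_χ l) (show -1 < hz g s z.2 by linarith),
    h.σ s _ _ _ (show -1 < hz g s z.2 by linarith),
    show χ (hz g s z.2) = 1 from smoothTransition.one_of_one_le (by linarith), one_mul]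
  abel

omit h in
theorem th_le {N : Type} [NormedAddCommGroup N] [NormedSpace ℝ N] (t : ℝ) (v : N) :
    ‖χ t • v‖ ≤ ‖v‖ := by
  rw [norm_smul, Real.norm_of_nonneg (smoothTransition.nonneg t)]
  exact mul_le_of_le_one_left (norm_nonneg _) (smoothTransition.le_one t)

theorem comm_r (l : A → ℝ) :
    Cq (tc (g.D s).Z.toPre g.F.toPre (g.K s).ψ 0 L.A.q (pc (L.E s).q) (th g s 1) ∘L L.T l)
      ((cy s L (l s)).H (g.D s).Z 0 ∘L
        tc (g.D s).Z.toPre g.F.toPre (g.K s).ψ 1 L.A.p (pc (L.E s).p) (th g s 1)) :=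
  comm0 (A := cy s L (l s)) (A' := L.sh l) (cp zero_le_one) (cp le_rfl).td
    (fun y hy => smoothTransition.one_of_one_le (by
      linarith [show 1 ≤ g.ht s y from supp_χ (cont_ht g s) hy])) (good_cy s h _).choose_spec
    (good_sh h l).choose_spec h.gm.tame.choose_spec (lit_p s h) (lit_q s h) (lit_σ s h) fun δ hδ => by
      obtain ⟨T, hT⟩ := far s h l hδ
      refine ⟨_, h.gm.cpt T, fun z hz k => ?_⟩
      have := hT z (ht_ψ hz ▸ not_le.1 fun e => k (mem_cor h.gm (mem_tgt.1 ((g.K s).ψ.map_source hz)) e))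
      exact ⟨D_far _ (cont_ht g s) (ht_ψ hz ▸ this.1), (th_le _ _).trans this.2⟩

theorem comm_e (l : A → ℝ) :
    Cq (tc g.F.toPre (g.D s).Z.toPre (g.K s).ψ.symm 0 (pc (L.E s).q) L.A.q (th' g s 1) ∘L
      (cy s L (l s)).H (g.D s).Z 0)
      (L.T l ∘L tc g.F.toPre (g.D s).Z.toPre (g.K s).ψ.symm 1 (pc (L.E s).p) L.A.p (th' g s 1)) := by
  have sy : ∀ {α : Type} {f : X.M → α} {f' : (g.Y s).M × ℝ → α},
      (∀ z ∈ (g.K s).ψ.source, f' z = f ((g.K s).ψ z)) →
      ∀ x ∈ (g.K s).ψ.symm.source, f x = f' ((g.K s).ψ.symm x) := fun e x hx => by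
    rw [e _ ((g.K s).ψ.map_target hx), (g.K s).ψ.right_inv hx]
  have c := (cont_hz g s).comp (continuous_snd (X := (g.Y s).M))
  refine comm0 (A' := cy s L (l s)) (A := L.sh l) (cp zero_le_one).symm (cp le_rfl).symm.td (fun y hy => smoothTransition.one_of_one_le
      (by linarith [show 1 ≤ hz g s y.2 from supp_χ c hy])) (good_sh h l).choose_spec
    (good_cy s h _).choose_spec (h.cy s).tameZ.choose_spec (sy (lit_p s h)) (sy (lit_q s h))
    (fun x hx a => sy (f := L.A.σ a) (fun z hz => lit_σ s h z hz a) x hx) fun δ hδ => ?_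
  obtain ⟨T, hT⟩ := far s h l hδ
  refine ⟨_, isCompact_univ.prod ((isCompact_Icc (a := -1) (b := T)).image (sm_tt g s).continuous),
    fun x hx k => ?_⟩
  have := hT ((g.K s).ψ.symm x) (not_le.1 fun e => k ⟨trivial, _,
    ⟨(src_iff.1 ((g.K s).ψ.map_target hx)).le, e⟩, tt_sg _⟩)
  rw [(g.K s).ψ.right_inv hx, norm_sub_rev] at this
  exact ⟨D_far _ c this.1, (th_le _ _).trans this.2⟩

omit h in
theorem part {U : Type} [NormedAddCommGroup U] [InnerProductSpace ℝ U] [FiniteDimensional ℝ U]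
    {p : X.M → U →L[ℝ] U} {p' : ∀ s, (g.Y s).M × ℝ → U →L[ℝ] U}
    (hp : ∀ s, ∀ z ∈ (g.K s).ψ.source, p' s z = p ((g.K s).ψ z)) (k : ℕ) {R R' : ℝ} (hR : 0 ≤ R)
    (hR' : 0 ≤ R') (e : ∀ t, χ (t - R) * χ (t - R') = χ (t - 1)) :
    smulH g.F.toPre k p (fun x => 1 - ∑ s, th g s 1 x) +
      ∑ s, tc g.F.toPre (g.D s).Z.toPre (g.K s).ψ.symm k (p' s) p (th' g s R) ∘L
        tc (g.D s).Z.toPre g.F.toPre (g.K s).ψ k p (p' s) (th g s R') = .id ℝ _ :=
  RepT_eq (RepT_add (rep_smulH (Cb_sub (Cb_const 1) (Cb_sum _ fun _ _ => (cp zero_le_one).cb')))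
    (RepT_sum _ fun s _ => (cp hR).rep (cp hR') (hp s) k)) Rep_id fun u => funext fun x => by
      simp [th, e, sub_smul, Finset.sum_smul]

omit s in
theorem fr (hl : L.Off l) : (L.T l).IsFredholm := by
  have cb : g.F.Cb fun x => 1 - ∑ s, th g s 1 x :=
    Cb_sub (Cb_const 1) (Cb_sum _ fun _ _ => (cp zero_le_one).cb')
  obtain ⟨h0, ⟨Q₀, h1⟩, Q₁, h2⟩ := int_par h.gm.tame.choose_spec (good_sh h l).choose_spec h.cl
    cb.choose_spec.1 (.intro (h.gm.cpt 2) fun x hx => by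
      obtain ⟨s, hs⟩ := not_forall.1 hx
      rw [not_le] at hs
      rw [sub_eq_zero, show ∑ s, th g s 1 x = _ from rd_eq (c := fun _ t => χ (t - 1)) h.gm
        (fun _ _ _ => smoothTransition.zero_of_nonpos (by linarith)) (show -1 < g.ht s x by linarith)]
      exact (smoothTransition.one_of_one_le (by linarith)).symm)
  choose Q q1 q2 using fun s => exists_inv
    (cy_H s h (l s) ▸ bij_cyl (h.cy s) (not_not.1 (hl s)) : Bijective ((cy s L (l s)).H (g.D s).Z 0))
  exact isFredholm_of_cq (left_patch₀ h0.symm h1 (fun s => comm_r s h l) q1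
    (part (fun s => lit_p s h) 1 le_rfl zero_le_one χ_mul)) (right_patch₀ h0 h2
      (fun s => (comm_e s h l).symm) q2
      (part (fun s => lit_q s h) 0 zero_le_one le_rfl fun t => (mul_comm _ _).trans (χ_mul t)))

omit s in
theorem cpt {R : X.M → V →L[ℝ] W} (hl : L.Off l) (hR : L.Zer R) (h' : (L.ms 0 R).OK) :
    (L.ms 0 R).ix l = L.ix l := by
  have k := cpt_small (p := L.A.p) h.gm.tame.choose_spec hR.1 (.of_left hR.2) fun δ hδ => by
    choose T hT using fun s => h.B s _ (half_pos hδ)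
    choose T' hT' using fun s => h'.B s _ (half_pos hδ)
    obtain ⟨B, hB⟩ := (finite_range fun s => max (T s) (T' s)).bddAbove
    refine ⟨_, h.gm.cpt (max B 0), fun x hx => ?_⟩
    obtain ⟨s, hs⟩ := not_forall.1 hx
    rw [not_le, max_lt_iff] at hs
    obtain ⟨y, hy⟩ := exists_pt (show -1 < g.ht s x by linarith [hs.2])
    have b := max_le_iff.1 (hB ⟨s, rfl⟩)
    have h1 := hT s _ (b.1.trans hs.1.le) y
    have h2 := hT' s _ (b.2.trans hs.1.le) y
    rw [hy] at h1 h2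
    refine (congrArg norm ?_).trans_le ((norm_sub_le _ _).trans ((add_le_add h2 h1).trans_eq
      (add_halves δ)))
    simp [Lop.ms, Gm.rd]
  refine (((Fr.of (fr h hl)).add_compact k.cpt).congr (DFunLike.congr_fun (RepT_eq
    (rep_OpH (good_sh h' l).choose_spec 0).1 (RepT_add (rep_OpH (good_sh h l).choose_spec 0).1
      (RepT_comp (rep_mulH hR.1 (.of_left hR.2)) (rep_incl zero_le_one)))
    fun u => funext fun x => ?_))).2
  simp only [Pi.add_apply, sh_app, id]
  simp [Lop.ms, Op.app, Pre.op, Gm.rd]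
  abel

theorem jmp0 (hl : L.Off l) (hl' : L.Off l') (e0 : ∀ s' ≠ s, l' s' = l s') {σ σ' : ℝ →ᵇ ℝ} {r : ℝ}
    (hσ : Stp σ σ' r) (cb : (cylP (g.D s).F.toPre).Cb fun x => σ x.2) {c d : ℝ} (hc : c ∉ L.Spec s)
    (hd : d ∉ L.Spec s) (e : ∀ t, -c + (c - d) * σ t = -l s + (l s - l' s) * χ (hz g s t - 1)) :
    L.ix l' = L.ix l + sf ((g.D s).F.incl 1 0 (L.E s).p) (LH (g.D s).F (L.E s) 0)
      (Ψ (g.D s).F.toPre 1 (L.E s).p) (TH (g.D s).F (L.E s).p) σ
        (-c • .id ℝ ((g.D s).F.H 0 (L.E s).p)) (-d • .id ℝ ((g.D s).F.H 0 (L.E s).p)) := by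
  have cy := h.cy s
  obtain ⟨C, G⟩ := h.good
  have c0 := cp (g := g) (s := s) le_rfl
  have c1 := cp (g := g) (s := s) zero_le_one
  have rΔ := RepT_comp (RepT_smul (l s - l' s) (cy.rep_NH' (k := 0))) (rep_incl zero_le_one)
  have hq : ∀ x ∈ (g.K s).ψ.symm.source, L.A.q x = pc (L.E s).q ((g.K s).ψ.symm x) := fun x hx => by
    rw [lit_q s h _ ((g.K s).ψ.map_target hx), (g.K s).ψ.right_inv hx]
  let b : X.M → V →L[ℝ] W := fun x => (l s - l' s) • (th g s 0 x - th g s 1 x) • L.A.σ none x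
  have cB : g.F.Cb b := Cb_smul (Cb_const _) (Cb_smul (Cb_sub c0.cb' c1.cb') ⟨_, G.σ none⟩)
  have mb : Maps L.A.p L.A.q b := .of_left fun x v => by simp [b, G.qσ]
  have k := rellich_mul (F := g.F.toPre) cB.choose_spec.1 (.intro (isCompact_ht (g := g) (s := s)
    (isCompact_Icc (a := 0) (b := 2)) (Icc_sub neg_one_lt_zero _)) fun x hx => by
      rw [mem_preimage, mem_Icc, not_and_or, not_le, not_le] at hx
      rcases hx with hx | hx
      · simp [b, th, smoothTransition.zero_of_nonpos hx.le,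
          smoothTransition.zero_of_nonpos (show g.ht s x - 1 ≤ 0 by linarith)]
      · simp [b, th, smoothTransition.one_of_one_le (show 1 ≤ g.ht s x by linarith),
          smoothTransition.one_of_one_le (show 1 ≤ g.ht s x - 1 by linarith)]) mb zero_lt_one
  have r1 : (cylP (g.D s).F.toPre).Rep
      (tc (g.D s).Z.toPre g.F.toPre (g.K s).ψ 0 L.A.q (pc (L.E s).q) (th g s 1) ∘L
        tc g.F.toPre (g.D s).Z.toPre (g.K s).ψ.symm 0 (pc (L.E s).q) L.A.q (th' g s 0)) _ :=
    c1.symm.rep c0.symm hq 0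
  have r2 := RepT_add (rep_OpH (good_cy s h (l s)).choose_spec 0).1 (RepT_comp r1 rΔ)
  have r3 := RepT_comp (cy.rep_NH' (k := 0)) (RepT_add (RepT_smul (-c) Rep_id)
    (RepT_smul (c - d) (rep_smulH cb)))
  have r4 := RepT_add (RepT_add (rep_OpH (good_sh h l).choose_spec 0).1
    (RepT_comp (c0.symm.td.rep hq 0) (RepT_comp rΔ (c1.td.rep (lit_p s h) 1))))
    (RepT_comp (rep_mulH cB mb) (rep_incl zero_le_one))
  have e1 := RepT_eq r2 (RepT_add cy.rep_AH (RepT_comp r3 (rep_incl zero_le_one)))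
    fun u => funext fun z => ?_
  have e2 := RepT_eq (rep_OpH (good_sh h l').choose_spec 0).1 r4 fun u => funext fun x => ?_
  · exact (add_zero _).symm.trans (Crt72.excise (Fr.of (fr h hl)) (Fr.of (fr h hl'))
      (Fr.of_bijective (cy_H s h (l s) ▸ bij_cyl cy (not_not.1 (hl s)) :
        Bijective ((Fre43.cy s L (l s)).H (g.D s).Z 0)))
      ((fr_stp cy hσ cb (not_not.1 hc) (not_not.1 hd) fun _ => rfl).congr (DFunLike.congr_fun e1))
      (comm_r s h l) (Cq.of_cpt k (DFunLike.congr_fun e2)))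
  swap
  · simp only [Pi.add_apply, Pi.smul_apply, adB_app, id, th', mul_comm (χ (_ - 1)), χ_mul,
      _root_.smul_apply, smul_smul, ← add_smul, map_smul, e, add_assoc]
  · have e1 : g.rd (fun s τ => χ τ * l' s) x =
        g.rd (fun s τ => χ τ * l s) x - (l s - l' s) * th g s 0 x := by
      classical
      simp only [Gm.rd, th, sub_zero]
      rw [← Finset.add_sum_erase _ _ (Finset.mem_univ s), ← Finset.add_sum_erase _ _ (Finset.mem_univ s),
        Finset.sum_congr rfl fun s' hs => by rw [e0 s' (Finset.ne_of_mem_erase hs)]]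
      ring
    simp only [Pi.add_apply, Pi.smul_apply, sh_app, id, e1, b, _root_.smul_apply]
    by_cases hx : x ∈ (g.K s).ψ.target
    · have hx' := (g.K s).ψ.map_target hx
      simp only [pull_of_mem (φ := (g.K s).ψ.symm) hx, pull_of_mem hx', lit_σ s h _ hx',
        c0.eq _ hx', (g.K s).ψ.right_inv hx, map_smul, smul_smul]
      rw [mul_right_comm, show th g s 0 x * th g s 1 x = th g s 1 x from χ_mul _]
      module
    · simp [pull_of_notMem (φ := (g.K s).ψ.symm) hx,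
        image_eq_zero_of_notMem_tsupport fun k => hx (c0.adm'.1 k),
        image_eq_zero_of_notMem_tsupport fun k => hx (c1.adm'.1 k)]

theorem fin (a b : ℝ) : (L.Spec s ∩ Icc a b).Finite :=
  (show L.Spec s = _ from spec_eq (h.cy s)) ▸ Gap6.fin (h.cy s) isCompact_Icc

theorem jmp (hl : L.Off l) (hl' : L.Off l') (e0 : ∀ s' ≠ s, l' s' = l s') (hab : l s ≤ l' s) :
    L.ix l - L.ix l' =
      (if g.sd s then 1 else -1) * ∑ᶠ ν ∈ L.Spec s ∩ Ioo (l s) (l' s), (L.mult s ν : ℤ) := by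
  have cy := h.cy s
  obtain ⟨C, hC⟩ := bd_hz g s 1
  have n := fun t => smoothTransition.nonneg (hz g s t - 1)
  have n' := fun t => smoothTransition.le_one (hz g s t - 1)
  have o1 := le_abs_self (g.o s)
  have o2 := neg_abs_le (g.o s)
  have N : ∀ {σ σ' : ℝ →ᵇ ℝ} {r : ℝ} (hσ : Stp σ σ' r), _ =
      ∑ᶠ ν ∈ L.Spec s ∩ Ioo (l s) (l' s), (L.mult s ν : ℤ) := fun hσ =>
    (sf_cnt (cy.isSF hσ) (fun ν => not_not.trans (inj_shf cy ν).symm) (fin s h) hab (hl s)
      (hl' s)).trans (finsum_congr fun ν => finsum_congr fun _ =>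
        congrArg _ (eig_eqv cy ν).some.finrank_eq.symm)
  cases hs : g.sd s
  · obtain ⟨σ, σ', hσ, e⟩ := stp_of (f := fun t => 1 - χ (hz g s t - 1)) (r := |g.o s| + 3)
      (contDiff_const.sub hC.1) (fun t => abs_le.2 ⟨by linarith [n' t], by linarith [n t]⟩)
      (by positivity) (fun t ht => sub_eq_zero.2 (smoothTransition.one_of_one_le (by
        simp only [hz, Gm.sg, hs, pm]; norm_num; linarith)).symm)
      fun t ht => sub_eq_self.2 (smoothTransition.zero_of_nonpos (by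
        simp only [hz, Gm.sg, hs, pm]; norm_num; linarith))
    rw [jmp0 s h hl hl' e0 hσ (by
      simp only [e]; exact Cb_sub (Cb_const 1) ⟨_, hC.cyl _⟩) (hl' s) (hl s) fun t => by
        rw [e]; ring, N hσ]
    simp
  · obtain ⟨σ, σ', hσ, e⟩ := stp_of (r := |g.o s| + 3) hC.1
      (fun t => abs_le.2 ⟨by linarith [n t], n' t⟩) (by positivity)
      (fun t ht => smoothTransition.zero_of_nonpos (by
        simp only [hz, Gm.sg, hs, pm]; norm_num; linarith))
      fun t ht => smoothTransition.one_of_one_le (by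
        simp only [hz, Gm.sg, hs, pm]; norm_num; linarith)
    have bij := fun c (hc : c ∉ L.Spec s) => (congrArg (fun T : _ →L[ℝ] _ => Bijective T) (op_id c)).mpr
      (bij_sub (rellich zero_lt_one) (cy.frL 0) ((inj_shf cy c).2 (not_not.1 hc)))
    rw [jmp0 s h hl hl' e0 hσ (by simp only [e]; exact ⟨_, hC.cyl _⟩) (hl s) (hl' s) fun t => by
      rw [e], (cy.isSF hσ).anti (sym_id _) (sym_id _) (bij _ (hl' s)) (bij _ (hl s)), N hσ]
    simp

theorem gap (l : ℝ) : ∃ γ > 0, L.Gap s l γ ∧ L.Spec s ∩ Icc (l - γ / 2) (l + γ / 2) ⊆ {l} := by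
  obtain ⟨γ, h1, h0⟩ := ((isol (fin s h) l).and self_mem_nhdsWithin).exists
  have h0 : 0 < γ := h0
  refine ⟨γ, h0, fun u ν δ d0 d1 d2 => ?_, (inter_subset_inter_right _
    (Icc_subset_Icc (by linarith) (by linarith))).trans h1⟩
  have := Gap6.gap (h.cy s) (β := ν) d0 (fun μ hμ => by
    by_contra! k
    have k1 := abs_sub_le μ ν l
    rw [abs_sub_comm μ ν] at k1
    have k2 := abs_le.1 (show |μ - l| ≤ γ by linarith)
    obtain rfl : μ = l := h1 ⟨(spec_eq (h.cy s)).ge hμ, by linarith [k2.1], by linarith [k2.2]⟩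
    linarith) u
  rw [Pre.nrm, Pre.nrm, ← sqrt_sq d0, ← sqrt_mul (sq_nonneg δ)]
  simp only [Pre.ip, real_inner_self_eq_norm_sq]
  exact sqrt_le_sqrt this

omit h

/-- **FRE** -/
theorem freStmt (κ lam : Type) [Fintype κ] [Fintype lam] : FreStmt κ lam :=
  fun _ _ _ _ _ _ _ _ _ _ _ _ L h => by
    classical
    refine ⟨fun s => fin s h, fun s l => ?_, fun s => gap s h, fun _ => fr h, fun _ _ => cpt h,
      fun l s a b hab ha hb => ?_⟩
    · have := (((h.cy s).frL 0).of_sub_compact (L' := LH _ (L.E s) 0 - l • Pre.incl _ 1 0 (L.E s).p)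
        (by simpa using ((rellich zero_lt_one).smul l).neg)).1.finite_ker
      exact (eig_eqv (h.cy s) l).some.symm.finiteDimensional
    · simpa using jmp s h ha hb (fun s' e => by simp [e]) (by simpa using hab)

end Crest.Agent.X212.Fre43
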